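import Vale.Agent.P297Y.Tor.Sk

/-!
# The universal property of the analytic Jacobian
-/

open Filter Topology Function Vale.Agent.P019P P025H816

namespace Vale.Agent.P297Y.Tor

open Vale.Agent.P297Y.Jac
open Vale.Agent.P297Y.AJ (pv)

namespace Ju

/-- a local parametrisation of a group with an analytic group law comes from a homomorphism, with
the inverse of the logarithm -/
theorem lin2 {κ : Type} [Fintype κ] [DecidableEq κ] {G : Type*} [AddCommGroup G]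
    (ψ : κ → ℂ → G) (h0 : ∀ i, ψ i 0 = 0)
    (hinj : ∀ᶠ p : (κ → ℂ) × (κ → ℂ) in 𝓝 (0, 0),
      ∑ i, ψ i (p.1 i) = ∑ i, ψ i (p.2 i) → p.1 = p.2)
    (μ : (κ → ℂ) × (κ → ℂ) → κ → ℂ) (hμ : AnalyticAt ℂ μ (0, 0)) (hμ0 : μ (0, 0) = 0)
    (hadd : ∀ᶠ p in 𝓝 (0, 0), ∑ i, ψ i (μ p i) = ∑ i, ψ i (p.1 i) + ∑ i, ψ i (p.2 i)) :
    ∃ (E : (κ → ℂ) →+ G) (l : (κ → ℂ) → κ → ℂ), AnalyticAt ℂ l 0 ∧ l 0 = 0 ∧
      (∀ᶠ u in 𝓝 0, E (l u) = ∑ i, ψ i (u i)) ∧ (∀ᶠ v in 𝓝 0, E v = 0 → v = 0) ∧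
      ∃ e : (κ → ℂ) → κ → ℂ, AnalyticAt ℂ e 0 ∧ e 0 = 0 ∧
        ∀ᶠ v in 𝓝 0, E v = ∑ i, ψ i (e v i) := by
  have tμ : Tendsto μ (𝓝 (0, 0)) (𝓝 0) := by
    have := hμ.continuousAt.tendsto
    rwa [hμ0] at this
  let Ψ : (κ → ℂ) → G := fun u => ∑ i, ψ i (u i)
  have Ψ0 : Ψ 0 = 0 := by simp [Ψ, h0]
  change ∀ᶠ p : (κ → ℂ) × (κ → ℂ) in 𝓝 (0, 0), Ψ p.1 = Ψ p.2 → p.1 = p.2 at hinj
  change ∀ᶠ p in 𝓝 (0, 0), Ψ (μ p) = Ψ p.1 + Ψ p.2 at hadd
  have hi : ∀ {α : Type} {F : Filter α} {a b : α → κ → ℂ}, Tendsto a F (𝓝 0) →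
      Tendsto b F (𝓝 0) → (∀ᶠ x in F, Ψ (a x) = Ψ (b x)) → ∀ᶠ x in F, a x = b x :=
    fun ha hb h => ((ha.prodMk_nhds hb).eventually hinj).mp (h.mono fun x h1 h2 => h2 h1)
  have hm : ∀ {α : Type} {F : Filter α} {a b : α → κ → ℂ}, Tendsto a F (𝓝 0) →
      Tendsto b F (𝓝 0) → Tendsto (fun x => μ (a x, b x)) F (𝓝 0) ∧
        ∀ᶠ x in F, Ψ (μ (a x, b x)) = Ψ (a x) + Ψ (b x) :=
    fun ha hb => ⟨tμ.comp (ha.prodMk_nhds hb), (ha.prodMk_nhds hb).eventually hadd⟩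
  have tc : ∀ {α : Type} {F : Filter α}, Tendsto (fun _ : α => (0 : κ → ℂ)) F (𝓝 0) :=
    fun {_ _} => tendsto_const_nhds
  obtain ⟨l, al, l0, dl, hl⟩ := exists_log μ hμ
    (hi (hm tendsto_id tc).1 tendsto_id ((hm tendsto_id tc).2.mono fun u h => by
      simpa [Ψ0] using h))
    (hi (hm tc tendsto_id).1 tendsto_id ((hm tc tendsto_id).2.mono fun u h => by
      simpa [Ψ0] using h))
    (by
      have a1 : Tendsto (fun p : ((κ → ℂ) × (κ → ℂ)) × (κ → ℂ) => p.1.1) (𝓝 ((0, 0), 0)) (𝓝 0) :=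
        (continuous_fst.comp continuous_fst).tendsto _
      have a2 : Tendsto (fun p : ((κ → ℂ) × (κ → ℂ)) × (κ → ℂ) => p.1.2) (𝓝 ((0, 0), 0)) (𝓝 0) :=
        (continuous_snd.comp continuous_fst).tendsto _
      have a3 : Tendsto (fun p : ((κ → ℂ) × (κ → ℂ)) × (κ → ℂ) => p.2) (𝓝 ((0, 0), 0)) (𝓝 0) :=
        continuous_snd.tendsto _
      refine hi (hm (hm a1 a2).1 a3).1 (hm a1 (hm a2 a3).1).1 ?_
      filter_upwards [(hm (hm a1 a2).1 a3).2, (hm a1 a2).2, (hm a1 (hm a2 a3).1).2,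
        (hm a2 a3).2] with p h1 h2 h3 h4
      rw [h1, h2, h3, h4, add_assoc])
    (fun j => by
      have c1 : Continuous fun p : (κ → ℂ) × ℂ => Function.update p.1 j (0 : ℂ) := by fun_prop
      have c2 : Continuous fun p : (κ → ℂ) × ℂ => (Pi.single j p.2 : κ → ℂ) :=
        (continuous_single j).comp continuous_snd
      have c3 : Continuous fun p : (κ → ℂ) × ℂ => Function.update p.1 j p.2 := by fun_prop
      have e1 := c1.tendsto' (0, 0) 0 (by simp)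
      have e2 := c2.tendsto' (0, 0) 0 (by simp)
      refine hi (hm e1 e2).1 (c3.tendsto' (0, 0) 0 (by simp)) ((hm e1 e2).2.mono fun p h => ?_)
      rw [h, ← Finset.sum_add_distrib]
      refine Finset.sum_congr rfl fun i _ => ?_
      by_cases hij : i = j
      · subst hij
        simp [h0]
      · simp [hij, h0])
  obtain ⟨e, ae, e0, he1, he2⟩ := ift (f := fun p : (κ → ℂ) × (κ → ℂ) => l p.2 - p.1)
    (x := 0) (y := 0) ((AnalyticAt.comp (f := Prod.snd) al analyticAt_snd).sub analyticAt_fst)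
    (L := .id ℂ _) ⟨.refl ℂ _, rfl⟩ (by simpa using dl)
  simp only [l0, sub_zero, sub_eq_zero] at he1 he2
  have te : Tendsto e (𝓝 0) (𝓝 0) := by simpa [ContinuousAt, e0] using ae.continuousAt
  have tl : Tendsto l (𝓝 0) (𝓝 0) := by simpa [ContinuousAt, l0] using al.continuousAt
  have hel : ∀ᶠ u in 𝓝 0, e (l u) = u :=
    ((tl.prodMk_nhds tendsto_id).eventually he2).mono fun u h => h rfl
  have t1 : Tendsto (fun p : (κ → ℂ) × (κ → ℂ) => p.1) (𝓝 (0, 0)) (𝓝 0) := continuous_fst.tendsto _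
  have t2 : Tendsto (fun p : (κ → ℂ) × (κ → ℂ) => p.2) (𝓝 (0, 0)) (𝓝 0) := continuous_snd.tendsto _
  obtain ⟨E, hE⟩ := ext_hom (fun v => Ψ (e v)) (by
    have b1 := te.comp t1
    have b2 := te.comp t2
    filter_upwards [(hm b1 b2).1.eventually hel, (hm b1 b2).2, (b1.prodMk_nhds b2).eventually hl,
      t1.eventually he1, t2.eventually he1] with p h1 h2 h3 h4 h5
    simp only [Function.comp] at h1 h2 h3
    rw [h3, h4, h5] at h1
    rw [h1, h2])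
  refine ⟨E, l, al, l0, ?_, ?_, e, ae, e0, hE⟩
  · filter_upwards [tl.eventually hE, hel] with u h1 h2
    rw [h1, h2]
  · filter_upwards [hE, (te.prodMk_nhds tc).eventually hinj, he1] with v h1 h2 h3 h4
    rw [← h3, h2 (by rw [← h1, h4, Ψ0]), l0]

/-- a homomorphism to a torus which is holomorphic near the origin is induced by a linear map -/
theorem hom_lin {g : ℕ} (T : Torus) (θ : (Fin g → ℂ) →+ T.G) {M : (Fin g → ℂ) → Fin T.g → ℂ}
    (hM : AnalyticAt ℂ M 0) (h0 : M 0 = 0) (h : ∀ᶠ v in 𝓝 0, θ v = T.lat.mkQ (M v)) :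
    ∃ L : (Fin g → ℂ) →ₗ[ℂ] (Fin T.g → ℂ), ∀ v, θ v = T.lat.mkQ (L v) := by
  refine ⟨fderiv ℂ M 0, fun v => ?_⟩
  obtain ⟨x, hx⟩ := T.lat.mkQ_surjective (θ v)
  have hn : Tendsto (fun n : ℕ => ‖(n : ℂ)‖) atTop atTop := by
    simpa using tendsto_natCast_atTop_atTop (R := ℝ)
  have h1 := hM.differentiableAt.hasFDerivAt.lim v hn
  have h2 : Tendsto (fun n : ℕ => (n : ℂ)⁻¹ • v) atTop (𝓝 0) := by
    simpa using (tendsto_inv_atTop_nhds_zero_nat (𝕜 := ℂ)).smul_const v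
  have := T.disc
  have h3 : IsClosed (T.lat : Set (Fin T.g → ℂ)) :=
    AddSubgroup.isClosed_of_discrete (H := T.lat.toAddSubgroup)
  rw [← hx]
  refine (Submodule.Quotient.eq _).2 (h3.mem_of_tendsto (tendsto_const_nhds.sub h1) ?_)
  filter_upwards [h2.eventually h, eventually_ne_atTop 0] with n h4 h5
  refine (Submodule.Quotient.eq _).1 (hx.trans ?_)
  rw [h0, sub_zero, zero_add, Nat.cast_smul_eq_nsmul]
  change _ = T.lat.mkQ _
  rw [map_nsmul, ← h4, ← map_nsmul, ← Nat.cast_smul_eq_nsmul ℂ,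
    smul_inv_smul₀ (Nat.cast_ne_zero.2 h5)]

variable {F : Type} [Field F] [Algebra ℂ F] [CFF ℂ F]

/-- the exponential map -/
theorem exists_exp2 : ∃ E : (Fin (gen ℂ F) → ℂ) →+ PC F, (∀ᶠ v in 𝓝 0, E v = 0 → v = 0) ∧
    (∃ (q : Fin (gen ℂ F) → Plk ℂ F) (e : (Fin (gen ℂ F) → ℂ) → Fin (gen ℂ F) → ℂ),
      AnalyticAt ℂ e 0 ∧ e 0 = 0 ∧ ∀ᶠ v in 𝓝 0, E v = ∑ i, ps (q i) (e v i)) ∧
    ∀ P, ∃ Φ : ℂ → Fin (gen ℂ F) → ℂ, AnalyticAt ℂ Φ 0 ∧ Φ 0 = 0 ∧
      ∀ᶠ s in 𝓝 0, E (Φ s) = ps P s := by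
  classical
  have hc := Fintype.card_fin (gen ℂ F)
  obtain ⟨q, i0, -, l0⟩ := exists_good (F := F) ∅
  obtain ⟨q1, i1, d1, l1⟩ := exists_good (Finset.univ.image q)
  obtain ⟨q2, i2, d2, l2⟩ := exists_good (Finset.univ.image q ∪ Finset.univ.image q1)
  simp only [Finset.mem_union, Finset.mem_image, Finset.mem_univ, true_and, not_or,
    not_exists] at d1 d2
  obtain ⟨φ1, a1, z1, h1⟩ := exists_cmp' i0 i1 (fun j i => d1 i j) hc l1
  obtain ⟨φ2, a2, z2, h2⟩ := exists_cmp' i0 i2 (fun j i => (d2 i).1 j) hc l2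
  obtain ⟨φ3, a3, z3, h3⟩ := exists_cmp' (i1.sumElim i2 fun j i => (d2 i).2 j) i0
    (Sum.rec (fun j i e => d1 j i e.symm) fun j i e => (d2 j).1 i e.symm) hc l0
  let ν : (Fin (gen ℂ F) → ℂ) × (Fin (gen ℂ F) → ℂ) → Fin (gen ℂ F) ⊕ Fin (gen ℂ F) → ℂ :=
    fun p => Sum.elim (φ1 p.1) (φ2 p.2)
  have aν : AnalyticAt ℂ ν (0, 0) := analyticAt_pi_iff.2 (Sum.rec
    (fun i => an_fst (analyticAt_pi_iff.1 a1 i)) fun i => an_snd (analyticAt_pi_iff.1 a2 i))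
  have zν : ν (0, 0) = 0 := by simp [ν, z1, z2]
  obtain ⟨E, l, al, zl, hE, hE0, he⟩ := lin2 (fun i => ps (q i))
    (fun i => by simp [ps, Ch.pt0])
    ((ev_inj i0 hc l0).mono fun v hv h => hv (by
      rwa [sum_ps, sum_ps, sub_left_inj, ← sub_eq_zero, ← map_sub, cl_eq_zero] at h))
    (fun p => φ3 (ν p)) (a3.comp_of_eq aν zν) (by rw [zν, z3]) (by
      filter_upwards [(tendsto_of_an aν zν).eventually h3, (continuous_fst.tendsto _).eventually h1,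
        (continuous_snd.tendsto _).eventually h2] with p e3 e1 e2
      rw [e3, Fintype.sum_sum_type]
      simp only [ν, Sum.elim_inl, Sum.elim_inr, e1, e2]
      abel)
  refine ⟨E, hE0, ⟨q, he⟩, fun P => ?_⟩
  obtain ⟨q4, i4, d4, l4⟩ := exists_good (insert P (Finset.univ.image q))
  simp only [Finset.mem_insert, Finset.mem_image, Finset.mem_univ, true_and, not_or,
    not_exists] at d4
  obtain ⟨φ4, a4, z4, h4⟩ := exists_cmp' (p := fun _ : Unit => P) (injective_of_subsingleton _) i4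
    (fun _ i e => (d4 i).1 e.symm) hc l4
  obtain ⟨φ5, a5, z5, h5⟩ := exists_cmp' i4 i0 (fun j i e => (d4 j).2 i e.symm) hc l0
  have a6 : AnalyticAt ℂ (fun (s : ℂ) (_ : Unit) => s) 0 := analyticAt_pi_iff.2 fun _ => analyticAt_id
  have a7 : AnalyticAt ℂ (fun s : ℂ => φ4 fun _ => s) 0 := a4.comp_of_eq a6 rfl
  have a8 : AnalyticAt ℂ (fun s : ℂ => φ5 (φ4 fun _ => s)) 0 := a5.comp_of_eq a7 z4
  have z8 : φ5 (φ4 fun _ => 0) = 0 := (congrArg φ5 z4).trans z5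
  refine ⟨fun s => l (φ5 (φ4 fun _ => s)), al.comp_of_eq a8 z8, (congrArg l z8).trans zl, ?_⟩
  filter_upwards [(tendsto_of_an a8 z8).eventually hE, (tendsto_of_an a7 z4).eventually h5,
    (tendsto_of_an a6 rfl).eventually h4] with s e1 e2 e3
  simp [e1, e2, e3]

end Ju

open Ju

theorem ju : B_JU := by
  intro wda F _ _ _
  obtain ⟨E, hE0, ⟨q, e, ae, e0, he⟩, hE⟩ := exists_exp2 (F := F)
  choose Φ aΦ zΦ hΦ using hE
  obtain ⟨R, hR⟩ := exp_onto E fun P => by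
    have h1 : Tendsto (fun Q : Plk ℂ F => ev Q (ch P).t) (𝓝 P) (𝓝 0) := fun U hU =>
      (nhds_val (mem_of_one (ch P).t_mem) (by rwa [ev_eq_zero (ch P).t_mem])).mono fun Q h => h.2
    filter_upwards [(ch P).nhds, h1.eventually (hΦ P), ((tendsto_of_an (aΦ P) (zΦ P)).comp
      h1).eventually (Metric.closedBall_mem_nhds 0 one_pos)] with Q e1 e2 e3
    exact ⟨_, by simpa using e3, by rw [e2, ps, ← e1]⟩
  have hd : ∀ v, dgc (E v) = 0 := fun v => by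
    have h1 : ∀ n : ℕ, n ≠ 0 → (n : ℤ) ∣ dgc (E v) := fun n hn => ⟨dgc (E ((n : ℂ)⁻¹ • v)), by
      rw [← nsmul_eq_mul, ← map_nsmul, ← map_nsmul, ← Nat.cast_smul_eq_nsmul ℂ,
        smul_inv_smul₀ (by exact_mod_cast hn)]⟩
    exact Int.eq_zero_of_dvd_of_natAbs_lt_natAbs (h1 ((dgc (E v)).natAbs + 1) (by omega))
      (by omega)
  obtain ⟨P₀⟩ := nonempty_Plk ℂ F
  choose w hw using fun P => (hR (cp P - cp P₀) (by simp [dgc_cp])).imp fun _ h => h.2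
  let Λ := LinearMap.ker E.toIntLinearMap
  have hΛ : ∀ v v', Λ.mkQ v = Λ.mkQ v' ↔ E v = E v' := fun v v' => by
    rw [Submodule.mkQ_apply, Submodule.mkQ_apply, Submodule.Quotient.eq, ← sub_eq_zero, ← map_sub]
    rfl
  have hs : ∀ D : Plk ℂ F →₀ ℤ, ∃ v, (D.sum fun P n => n • Λ.mkQ (w P)) = Λ.mkQ v ∧
      E v = Jac.cl D - dg D • cp P₀ := fun D => by
    induction D using Finsupp.induction_linear with
    | zero => exact ⟨0, by simp, by simp⟩
    | add f g hf hg =>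
      obtain ⟨v, v1, v2⟩ := hf
      obtain ⟨v', v3, v4⟩ := hg
      refine ⟨v + v', ?_, ?_⟩
      · rw [Finsupp.sum_add_index' (by simp) (by simp [add_smul]), v1, v3, map_add]
      · rw [map_add, v2, v4, map_add, map_add, add_smul]
        abel
    | single Q n =>
      exact ⟨n • w Q, by rw [Finsupp.sum_single_index (by simp), map_smul],
        by rw [map_zsmul, hw, cl_single, dg_sgl, smul_sub]⟩
  have hdisc : DiscreteTopology Λ := discreteTopology_of_isOpen_singleton_zero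
    (isOpen_iff_mem_nhds.2 fun x hx => by
      rw [Set.mem_singleton_iff.1 hx]
      exact ((continuous_subtype_val.tendsto (0 : Λ)).eventually hE0).mono
        fun v hv => Subtype.ext (hv v.2))
  refine ⟨@Torus.mk _ Λ hdisc ⟨eq_top_iff.2 fun v _ => ?_⟩, fun P => Λ.mkQ (w P),
    fun D hD => ?_, fun y => ?_, fun P => ?_, fun T f hf => ?_⟩
  · refine (Submodule.span ℝ (Λ : Set (Fin (gen ℂ F) → ℂ))).closed_of_finiteDimensional.closure_subset
      (Metric.mem_closure_iff.2 fun ε hε => ?_)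
    obtain ⟨n, hn⟩ := exists_nat_gt (|R| / ε)
    have n0 : (0 : ℝ) < n := (div_nonneg (abs_nonneg R) hε.le).trans_lt hn
    obtain ⟨v', v1, v2⟩ := hR _ (hd (n • v))
    refine ⟨(n : ℝ)⁻¹ • (n • v - v'), Submodule.smul_mem _ _ (Submodule.subset_span ?_), ?_⟩
    · change E _ = 0
      rw [map_sub, v2, sub_self]
    · rw [smul_sub, ← Nat.cast_smul_eq_nsmul ℝ, inv_smul_smul₀ n0.ne', dist_self_sub_right,
        norm_smul, norm_inv, Real.norm_natCast, inv_mul_lt_iff₀ n0]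
      exact (v1.trans (le_abs_self R)).trans_lt ((div_lt_iff₀ hε).1 hn)
  · obtain ⟨v, v1, v2⟩ := hs D
    change (D.sum fun P n => n • Λ.mkQ (w P)) = 0 → _
    rw [v1, ← map_zero Λ.mkQ, hΛ, v2, hD, zero_smul, sub_zero, map_zero, cl_eq_zero]
    exact id
  · obtain ⟨v, rfl⟩ := Λ.mkQ_surjective y
    obtain ⟨D, hD⟩ := cl_surj (E v)
    have h1 : dg D = 0 := by rw [← dgc_cl, hD, hd]
    obtain ⟨v', v1, v2⟩ := hs D
    exact ⟨D, h1, v1.trans (by rw [hΛ, v2, h1, zero_smul, sub_zero, hD])⟩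
  · obtain ⟨ε, ε0, hε⟩ := Metric.eventually_nhds_iff.1 ((ch P).nb.and
      ((continuous_fst.tendsto _).eventually ((hΦ P).and (aΦ P).eventually_analyticAt)))
    refine ⟨(ch P).t, (ch P).u, ev P (ch P).u, ε, fun s => w P + Φ P s, ε0,
      by simpa [pv] using (ch P).t_mem, sub_ev (ch P).u_mem, fun s hs => analyticAt_const.fun_add
        (hε (y := (s, ev P (ch P).u)) (by simpa [Prod.dist_eq, ε0] using hs)).2.2,
      fun Q s y h1 h2 h3 h4 => ?_⟩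
    obtain ⟨h5, h6, -⟩ := hε (y := (s, y)) (by simp [dist_eq_norm, h3, h4])
    refine (hΛ _ _).2 ?_
    rw [map_add, hw, hw, h6, ps, ← h5 Q (mem_of_sub h1) (mem_of_sub h2) (ev_eq h1) (ev_eq h2)]
    abel
  · let f₀ : (Plk ℂ F →₀ ℤ) →+ T.G := Finsupp.liftAddHom fun Q => zmultiplesHom _ (f Q)
    let f₁ : PC F →+ T.G := QuotientAddGroup.lift _ f₀ fun D hD => wda F T f hf D hD
    have h1 : ∀ P, f₁ (cp P) = f P := fun P =>
      (Finsupp.liftAddHom_apply_single _ P 1).trans (one_zsmul _)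
    clear_value f₁
    choose Ψ aΨ hΨ using hf
    have h2 : ∀ P, f P = T.lat.mkQ (Ψ P 0) := fun P => by
      have := (hΨ P).self_of_nhds
      rwa [Ch.pt0] at this
    have ai : ∀ i, AnalyticAt ℂ (fun v => e v i) 0 := analyticAt_pi_iff.1 ae
    have zi : ∀ i, e 0 i = 0 := congrFun e0
    refine ⟨(Λ.liftQ (f₁.comp E).toIntLinearMap fun v hv => ?_).toAddMonoidHom,
      hom_lin T (f₁.comp E) (M := fun v => ∑ i, (Ψ (q i) (e v i) - Ψ (q i) 0)) ?_ ?_ ?_,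
      fun P Q => ?_⟩
    · change f₁ (E v) = 0
      rw [show E v = 0 from hv, map_zero]
    · exact Finset.analyticAt_fun_sum _ fun i _ =>
        ((aΨ _).comp_of_eq (ai i) (zi i)).sub analyticAt_const
    · simp [zi]
    · filter_upwards [he, eventually_all.2 fun i =>
        (tendsto_of_an (ai i) (zi i)).eventually (hΨ (q i))] with v h3 h4
      simp only [AddMonoidHom.comp_apply, h3, map_sum, map_sub, ps, h1, h4, ← h2]
    · rw [map_sub]
      change _ = f₁ (E (w P)) - f₁ (E (w Q))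
      rw [hw, hw, map_sub, map_sub, h1, h1, h1, sub_sub_sub_cancel_right]

end Vale.Agent.P297Y.Tor
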