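import Mathlib.Analysis.Complex.Liouville
import Mathlib.Analysis.Complex.RemovableSingularity
import Mathlib.Analysis.Complex.Polynomial.Basic
import Mathlib.Analysis.SpecialFunctions.Complex.Analytic
import Mathlib.Analysis.SpecialFunctions.Complex.LogDeriv
import Mathlib.RingTheory.RootsOfUnity.Complex
import Mathlib.Topology.LocallyConstant.Basic
import Mathlib.Topology.Algebra.IsUniformGroup.Basic

/-!
# Complex analysis for maps to a torus
-/

open Filter Topology Set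

namespace Vale.Agent.P297Y.Tor.Wda

variable {V : Type} [NormedAddCommGroup V] [NormedSpace ℂ V]

/-- `β` lifts to a holomorphic map near `c` -/
def Lifts (Λ : Submodule ℤ V) (β : ℂ → V ⧸ Λ) (c : ℂ) : Prop :=
  ∃ G : ℂ → V, AnalyticAt ℂ G c ∧ ∀ᶠ s in 𝓝 c, β s = Λ.mkQ (G s)

omit [NormedSpace ℂ V] in
theorem const_diff (Λ : Submodule ℤ V) [DiscreteTopology Λ] {G H : ℂ → V} {c : ℂ}
    (hG : ContinuousAt G c) (hH : ContinuousAt H c) (h : ∀ᶠ s in 𝓝 c, Λ.mkQ (G s) = Λ.mkQ (H s)) :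
    ∀ᶠ s in 𝓝 c, G s = H s + (G c - H c) := by
  have h0 : ∀ᶠ v in 𝓝 (0 : V), v ∈ Λ → v = 0 := by
    have h1 : ({0} : Set Λ) ∈ 𝓝 (0 : Λ) := (isOpen_discrete _).mem_nhds rfl
    obtain ⟨U, hU, h2⟩ := (mem_nhds_subtype _ _ _).1 h1
    filter_upwards [hU] with v hv hm
    exact congrArg Subtype.val (h2 (show (⟨v, hm⟩ : Λ) ∈ Subtype.val ⁻¹' U from hv))
  have h3 : Tendsto (fun s => (G s - H s) - (G c - H c)) (𝓝 c) (𝓝 0) := by
    have := (hG.sub hH).tendsto.sub_const (G c - H c)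
    simpa using this
  have hm : ∀ s, Λ.mkQ (G s) = Λ.mkQ (H s) → G s - H s ∈ Λ := fun s hs =>
    (Submodule.Quotient.eq Λ).1 hs
  filter_upwards [h3.eventually h0, h] with s h4 h5
  have h6 := h4 (sub_mem (hm s h5) (hm c h.self_of_nhds))
  rw [sub_eq_zero] at h6
  rw [← h6]
  abel

theorem deriv_eq (Λ : Submodule ℤ V) [DiscreteTopology Λ] {G H : ℂ → V} {c : ℂ}
    (hG : ContinuousAt G c) (hH : ContinuousAt H c) (h : ∀ᶠ s in 𝓝 c, Λ.mkQ (G s) = Λ.mkQ (H s)) :
    deriv G c = deriv H c := by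
  have h1 : G =ᶠ[𝓝 c] fun s => H s + (G c - H c) := const_diff Λ hG hH h
  rw [h1.deriv_eq, deriv_add_const]

/-- a holomorphic map from the sphere to a torus is constant -/
theorem glob [CompleteSpace V] (Λ : Submodule ℤ V) [DiscreteTopology Λ] {β β' : ℂ → V ⧸ Λ}
    (h : ∀ c, Lifts Λ β c) (h' : Lifts Λ β' 0) (hi : ∀ c, c ≠ 0 → β c = β' c⁻¹) :
    β 0 = β' 0 := by
  choose G hG hβ using h
  obtain ⟨G', hG', hβ'⟩ := h'
  let γ : ℂ → V := fun c => deriv (G c) c
  have key : ∀ c (H : ℂ → V), ContinuousAt H c → (∀ᶠ s in 𝓝 c, β s = Λ.mkQ (H s)) →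
      γ c = deriv H c := fun c H h1 h2 =>
    deriv_eq Λ (hG c).continuousAt h1 ((hβ c).and h2 |>.mono fun s hs => hs.1.symm.trans hs.2)
  have hγ : ∀ c, γ =ᶠ[𝓝 c] deriv (G c) := fun c => by
    filter_upwards [(hG c).eventually_analyticAt, (hβ c).eventually_nhds] with s h1 h2
    exact key s _ h1.continuousAt h2
  have hd : Differentiable ℂ γ := fun c =>
    (hG c).deriv.differentiableAt.congr_of_eventuallyEq (hγ c)
  have hinv : Tendsto (fun c : ℂ => c⁻¹) (cocompact ℂ) (𝓝 0) := by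
    rw [← Metric.cobounded_eq_cocompact]
    exact tendsto_inv₀_cobounded
  have hne : ∀ᶠ c : ℂ in cocompact ℂ, c ≠ 0 := isCompact_singleton.compl_mem_cocompact
  have ht : Tendsto γ (cocompact ℂ) (𝓝 0) := by
    have h1 : Tendsto (fun c : ℂ => (-(c⁻¹ ^ 2)) • deriv G' c⁻¹) (cocompact ℂ)
        (𝓝 ((-((0:ℂ) ^ 2)) • deriv G' 0)) :=
      (hinv.pow 2).neg.smul (hG'.deriv.continuousAt.tendsto.comp hinv)
    simp only [ne_eq, OfNat.ofNat_ne_zero, not_false_eq_true, zero_pow, neg_zero, zero_smul] at h1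
    refine h1.congr' ?_
    filter_upwards [hinv.eventually hG'.eventually_analyticAt,
      hinv.eventually hβ'.eventually_nhds, hne] with c h2 h3 h4
    have h5 := (h2.differentiableAt.hasDerivAt.scomp c (hasDerivAt_inv h4))
    rw [key c _ h5.continuousAt ?_, h5.deriv, inv_pow]
    filter_upwards [(continuousAt_inv₀ h4).tendsto.eventually h3, isOpen_ne.mem_nhds h4]
      with s h6 h7
    rw [hi s h7, h6]
    rfl
  have h0 : ∀ c, γ c = 0 := fun c => hd.apply_eq_of_tendsto_cocompact c ht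
  have hlc : IsLocallyConstant β := by
    refine (IsLocallyConstant.iff_eventually_eq β).2 fun c => ?_
    obtain ⟨r, hr, hb⟩ := Metric.eventually_nhds_iff_ball.1
      ((hG c).eventually_analyticAt.and ((hγ c).and (hβ c)))
    filter_upwards [Metric.ball_mem_nhds c hr] with s hs
    have hc := Metric.mem_ball_self (x := c) hr
    rw [(hb s hs).2.2, (hb c hc).2.2]
    refine congrArg _ (Metric.isOpen_ball.is_const_of_deriv_eq_zero
      (convex_ball c r).isPreconnected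
      (fun y hy => (hb y hy).1.differentiableAt.differentiableWithinAt)
      (fun y hy => (hb y hy).2.1.symm.trans (h0 y)) hs hc)
  have hc : ∀ c, β c = β 0 := fun c => hlc.apply_eq_of_preconnectedSpace c 0
  obtain ⟨v, hv⟩ := Λ.mkQ_surjective (β 0)
  have hcl : IsClosed (Λ : Set V) := by
    have : DiscreteTopology Λ.toAddSubgroup := inferInstanceAs (DiscreteTopology Λ)
    exact AddSubgroup.isClosed_of_discrete (H := Λ.toAddSubgroup)
  have h1 : G' 0 - v ∈ Λ := by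
    refine hcl.mem_of_tendsto (b := 𝓝[≠] (0:ℂ)) (f := fun s => G' s - v)
      ((hG'.continuousAt.tendsto.mono_left nhdsWithin_le_nhds).sub_const v) ?_
    filter_upwards [nhdsWithin_le_nhds hβ', self_mem_nhdsWithin] with s h2 h3
    refine (Submodule.Quotient.eq Λ).1 ?_
    have h4 := hi s⁻¹ (inv_ne_zero h3)
    rw [inv_inv, hc, ← hv, h2] at h4
    exact h4.symm
  rw [hβ'.self_of_nhds, ← hv]
  exact ((Submodule.Quotient.eq Λ).2 h1).symm

/-- a local branch of the root -/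
theorem branch {e : ℕ} (he : e ≠ 0) {a r : ℂ} (ha : a ≠ 0) (hr : r ^ e = a) :
    ∃ b : ℂ → ℂ, AnalyticAt ℂ b a ∧ b a = r ∧ ∀ z, z ≠ 0 → b z ^ e = z := by
  refine ⟨fun z => r * Complex.exp (Complex.log (z / a) / e), ?_, by simp [ha], fun z hz => ?_⟩
  · have h1 : AnalyticAt ℂ (fun z : ℂ => z / a) a := analyticAt_id.div_const
    exact analyticAt_const.mul ((h1.clog (by simp [ha])).div_const).cexp
  · have h2 : (e : ℂ) ≠ 0 := Nat.cast_ne_zero.2 he
    rw [mul_pow, ← Complex.exp_nat_mul, mul_div_cancel₀ _ h2, Complex.exp_log (div_ne_zero hz ha),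
      hr, mul_div_cancel₀ _ ha]

theorem exists_root {e : ℕ} (he : e ≠ 0) :
    ∃ ρ : ℂ → ℂ, (∀ z, ρ z ^ e = z) ∧ Tendsto ρ (𝓝 0) (𝓝 0) := by
  choose ρ hρ using fun z : ℂ => IsAlgClosed.exists_pow_nat_eq z (Nat.pos_of_ne_zero he)
  refine ⟨ρ, hρ, Metric.tendsto_nhds_nhds.2 fun ε hε => ⟨ε ^ e, by positivity, fun z hz => ?_⟩⟩
  rw [dist_zero_right] at hz ⊢
  rw [← hρ z, norm_pow] at hz
  exact lt_of_pow_lt_pow_left₀ e hε.le hz

/-- a symmetric sum over the roots is holomorphic -/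
theorem sym_an [CompleteSpace V] {e : ℕ} (he : e ≠ 0) {ζ : ℂ} (hζ : IsPrimitiveRoot ζ e)
    {φ : ℂ → V} (hφ : AnalyticAt ℂ φ 0) {ρ : ℂ → ℂ} (hρ : ∀ z, ρ z ^ e = z)
    (hρ0 : Tendsto ρ (𝓝 0) (𝓝 0)) :
    AnalyticAt ℂ (fun z => ∑ j : Fin e, φ (ζ ^ (j : ℕ) * ρ z)) 0 := by
  let H : ℂ → V := fun r => ∑ j : Fin e, φ (ζ ^ (j : ℕ) * r)
  have hH : AnalyticAt ℂ H 0 := Finset.analyticAt_fun_sum _ fun j _ =>
    hφ.comp_of_eq (analyticAt_const.mul analyticAt_id) (by simp)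
  have h1 : ∀ r, H (ζ * r) = H r := fun r => by
    have a1 := Finset.sum_range_succ (fun j => φ (ζ ^ j * r)) e
    have a2 := Finset.sum_range_succ' (fun j => φ (ζ ^ j * r)) e
    rw [hζ.pow_eq_one, a2, pow_zero] at a1
    simp only [H, Fin.sum_univ_eq_sum_range (fun j => φ (ζ ^ j * (ζ * r))) e,
      Fin.sum_univ_eq_sum_range (fun j => φ (ζ ^ j * r)) e, ← mul_assoc, ← pow_succ]
    exact add_right_cancel a1
  have h2 : ∀ (k : ℕ) r, H (ζ ^ k * r) = H r := fun k r => by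
    induction k with
    | zero => simp
    | succ k ih => rw [pow_succ', mul_assoc, h1, ih]
  have h3 : ∀ r r', r ≠ 0 → r' ^ e = r ^ e → H r' = H r := fun r r' hr hp => by
    have : NeZero e := ⟨he⟩
    obtain ⟨k, -, hk⟩ := hζ.eq_pow_of_pow_eq_one (ξ := r' / r)
      (by rw [div_pow, hp, div_self (pow_ne_zero _ hr)])
    rw [← h2 k r, hk, div_mul_cancel₀ _ hr]
  have hρ1 : ρ 0 = 0 := pow_eq_zero_iff he |>.1 (hρ 0)
  refine Complex.analyticAt_of_differentiable_on_punctured_nhds_of_continuousAt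
    (f := fun z => H (ρ z)) ?_ ?_
  · filter_upwards [nhdsWithin_le_nhds (hρ0.eventually hH.eventually_analyticAt),
      self_mem_nhdsWithin] with z h4 h5
    obtain ⟨b, b1, b2, b3⟩ := branch he h5 (hρ z)
    refine ((h4.comp_of_eq b1 b2).differentiableAt).congr_of_eventuallyEq ?_
    filter_upwards [isOpen_ne.mem_nhds h5] with y hy
    refine h3 _ _ (fun h => hy ?_) (by rw [hρ, b3 y hy])
    rw [← b3 y hy, h, zero_pow he]
  · have h6 : ContinuousAt ρ 0 := by rw [ContinuousAt, hρ1]; exact hρ0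
    exact ContinuousAt.comp (f := ρ) (by rw [hρ1]; exact hH.continuousAt) h6

end Vale.Agent.P297Y.Tor.Wda
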