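import Vale.Agent.P297Y.Tor.Sk
import Vale.Agent.P297Y.Tor.WdaA

/-!
# A holomorphic map from a curve to a torus kills the principal divisors
-/

open Filter Topology Function Vale.Agent.P019P Vale.Agent.P297Y.Jac

namespace Vale.Agent.P297Y.Tor

namespace Wda

variable {F : Type} [Field F] [Algebra ℂ F] [CFF ℂ F]

/-- the divisor of the points where `h` has the value `c` -/
noncomputable def Z (h : F) (c : ℂ) : Plk ℂ F →₀ ℤ := pol ℂ (h - algebraMap ℂ F c)⁻¹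

theorem Z_apply (h : F) (c : ℂ) (P : Plk ℂ F) :
    Z h c P = max 0 (ord P (h - algebraMap ℂ F c)) := by
  rw [Z, pol_apply, ord_inv, neg_neg]

theorem ord_sub_of_neg {h : F} {P : Plk ℂ F} (hP : ord P h < 0) (c : ℂ) :
    ord P (h - algebraMap ℂ F c) = ord P h := by
  have h0 : h ≠ 0 := by
    rintro rfl
    simp [ord_zero] at hP
  rw [sub_eq_add_neg]
  exact (ord_add_of_lt h0 (neg_mem (Mge_mono P (by omega) (mem_iff.1 (cst_mem P c))))).2

theorem ord_sub_of_pos {h : F} {P : Plk ℂ F} (hP : 0 < ord P h) {c : ℂ} (hc : c ≠ 0) :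
    ord P (h - algebraMap ℂ F c) = 0 := by
  have h0 : algebraMap ℂ F (-c) ≠ 0 := (map_ne_zero _).2 (neg_ne_zero.2 hc)
  have h1 := (ord_add_of_lt (P := P) (w := h) h0 (Or.inr (by rw [ord_const]; omega))).2
  rwa [ord_const, map_neg, neg_add_eq_sub] at h1

theorem dg_Z (h : F) (c : ℂ) : dg (Z h c) = dg (pol ℂ h) := by
  have h1 := dg_dv (k := ℂ) (h - algebraMap ℂ F c)
  rw [dv_eq_pol_sub, map_sub, sub_eq_zero] at h1
  rw [Z, h1]
  congr 1
  ext P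
  by_cases hP : ord P h < 0
  · rw [pol_apply, pol_apply, ord_sub_of_neg hP]
  · have h2 : h ∈ P.1 := mem_iff.2 (Or.inr (not_lt.1 hP))
    rw [pol_eq h2, pol_eq (sub_mem h2 (cst_mem P c))]

theorem Z_inv {h : F} (hh : ∀ a, h ≠ algebraMap ℂ F a) {c : ℂ} (hc : c ≠ 0) :
    Z h c = Z h⁻¹ c⁻¹ := by
  have h0 : h ≠ 0 := fun h1 => hh 0 (by simpa using h1)
  have h1 : h - algebraMap ℂ F c ≠ 0 := sub_ne_zero.2 (hh c)
  have h2 : algebraMap ℂ F c ≠ 0 := (map_ne_zero _).2 hc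
  have h3 : algebraMap ℂ F (-c⁻¹) ≠ 0 := (map_ne_zero _).2 (neg_ne_zero.2 (inv_ne_zero hc))
  have h4 : h⁻¹ - algebraMap ℂ F c⁻¹ =
      algebraMap ℂ F (-c⁻¹) * (h⁻¹ * (h - algebraMap ℂ F c)) := by
    rw [map_neg, map_inv₀]
    field_simp
    ring
  ext P
  rw [Z_apply, Z_apply, h4, ord_mul P h3 (mul_ne_zero (inv_ne_zero h0) h1),
    ord_mul P (inv_ne_zero h0) h1, ord_const, ord_inv]
  rcases lt_trichotomy (ord P h) 0 with h5 | h5 | h5
  · rw [ord_sub_of_neg h5]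
    omega
  · omega
  · rw [ord_sub_of_pos h5 hc]
    omega

/-- the normal form of a function near a zero -/
theorem normal {h : F} {Q : Plk ℂ F} {e : ℕ} (he : e ≠ 0) (ho : ord Q h = e) :
    ∃ σ : ℂ → ℂ, AnalyticAt ℂ σ 0 ∧ σ 0 = 0 ∧
      (∀ᶠ r in 𝓝 0, h ∈ ((ch Q).pt (σ r)).1 ∧ ev ((ch Q).pt (σ r)) h = r ^ e) ∧
      ∃ w : ℂ → ℂ, ∀ᶠ r in 𝓝 0, w (ev ((ch Q).pt (σ r)) (ch Q).t) = r := by
  set c := ch Q
  have t0 : c.t ≠ 0 := fun h => by simpa [h, ord_zero] using c.ord_t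
  have h0 : h ≠ 0 := by
    rintro rfl
    rw [ord_zero] at ho
    omega
  have hu0 : (c.t ^ e)⁻¹ * h ≠ 0 := mul_ne_zero (inv_ne_zero (pow_ne_zero _ t0)) h0
  have h1 : ord Q ((c.t ^ e)⁻¹ * h) = 0 := by
    rw [ord_mul Q (inv_ne_zero (pow_ne_zero _ t0)) h0, ord_inv, ord_pow, c.ord_t, ho]
    ring
  have h2 : (c.t ^ e)⁻¹ * h ∈ Q.1 := mem_iff.2 (Or.inr h1.ge)
  have h3 : ev Q ((c.t ^ e)⁻¹ * h) ≠ 0 := fun h => by
    rcases mem_of_ev h2 h with h | h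
    · exact hu0 h
    · omega
  obtain ⟨a, ha⟩ := IsAlgClosed.exists_pow_nat_eq (ev Q ((c.t ^ e)⁻¹ * h)) (Nat.pos_of_ne_zero he)
  have ha0 : a ≠ 0 := by
    rintro rfl
    exact h3 (by rw [← ha, zero_pow he])
  obtain ⟨b, b1, b2, b3⟩ := branch he h3 ha
  obtain ⟨u1, u2⟩ := c.an _ h2
  have u0 : ev (c.pt 0) ((c.t ^ e)⁻¹ * h) = ev Q ((c.t ^ e)⁻¹ * h) := by rw [c.pt0]
  have v1 : AnalyticAt ℂ (fun s => b (ev (c.pt s) ((c.t ^ e)⁻¹ * h))) 0 := b1.comp_of_eq u2 u0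
  have w1 : AnalyticAt ℂ (fun s => s * b (ev (c.pt s) ((c.t ^ e)⁻¹ * h))) 0 :=
    analyticAt_id.mul v1
  have w2 : HasDerivAt (fun s => s * b (ev (c.pt s) ((c.t ^ e)⁻¹ * h)) - 0) a 0 := by
    have := (hasDerivAt_id' (0 : ℂ)).fun_mul v1.differentiableAt.hasDerivAt
    simpa [u0, b2] using this
  obtain ⟨σ, s1, s2, s3, -⟩ := ift1
    (f := fun v : ℂ × ℂ => v.2 * b (ev (c.pt v.2) ((c.t ^ e)⁻¹ * h)) - v.1) (x := 0) (y := 0)
    ((an_snd w1).sub analyticAt_fst) ha0 w2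
  simp only [zero_mul, sub_zero, sub_eq_zero] at s3
  have st : Tendsto σ (𝓝 0) (𝓝 0) := by simpa [ContinuousAt, s2] using s1.continuousAt
  have hev : ∀ {P : Plk ℂ F} {f : F}, f ∈ P.1 → ∀ n : ℕ, ev P (f ^ n) = ev P f ^ n := by
    intro P f hf n
    induction n with
    | zero => simpa using ev_one P
    | succ n ih => rw [pow_succ, ev_mul (pow_mem hf n) hf, ih, pow_succ]
  refine ⟨σ, s1, s2, ?_, fun s => s * b (ev (c.pt s) ((c.t ^ e)⁻¹ * h)), ?_⟩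
  · filter_upwards [s3, st.eventually u1, st.eventually c.ev_t,
      st.eventually (c.an _ (mem_of_one c.t_mem)).1,
      st.eventually (u2.continuousAt.eventually_ne (u0.trans_ne h3))] with r a1 a2 a3 a4 a5
    have a6 : h = c.t ^ e * ((c.t ^ e)⁻¹ * h) := (mul_inv_cancel_left₀ (pow_ne_zero _ t0) h).symm
    have a7 := ev_mul (pow_mem a4 e) a2
    rw [← a6, hev a4, a3, ← b3 _ a5, ← mul_pow, a1] at a7
    exact ⟨a6 ▸ mul_mem (pow_mem a4 e) a2, a7⟩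
  · filter_upwards [s3, st.eventually c.ev_t] with r a1 a3
    rw [a3, a1]

variable {T : Torus} {f : Plk ℂ F → T.G}

/-- the fibre near a zero -/
theorem place {h : F} {Q : Plk ℂ F} {e : ℕ} (he : e ≠ 0) (ho : ord Q h = e) (hf : HolAt T f Q) :
    ∃ (x : ℂ → Fin e → Plk ℂ F) (G : ℂ → Fin T.g → ℂ), AnalyticAt ℂ G 0 ∧
      (∀ j, Tendsto (fun c => x c j) (𝓝 0) (𝓝 Q)) ∧ T.lat.mkQ (G 0) = (e : ℤ) • f Q ∧
      ∀ᶠ c in 𝓝 0, (c ≠ 0 → Injective (x c)) ∧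
        (∀ j, h - algebraMap ℂ F c ∈ Mge (x c j) 1) ∧ ∑ j, f (x c j) = T.lat.mkQ (G c) := by
  obtain ⟨σ, s1, s2, s3, w, s4⟩ := normal he ho
  obtain ⟨Ψ, p1, p2⟩ := hf
  obtain ⟨ρ, r1, r2⟩ := exists_root he
  have hζ := Complex.isPrimitiveRoot_exp e he
  generalize Complex.exp _ = ζ at hζ
  have st : Tendsto σ (𝓝 0) (𝓝 0) := by simpa [ContinuousAt, s2] using s1.continuousAt
  have rt : ∀ j : Fin e, Tendsto (fun c => ζ ^ (j : ℕ) * ρ c) (𝓝 0) (𝓝 0) := fun j => by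
    simpa using r2.const_mul (ζ ^ (j : ℕ))
  have r0 : ρ 0 = 0 := pow_eq_zero_iff he |>.1 (r1 0)
  refine ⟨fun c j => (ch Q).pt (σ (ζ ^ (j : ℕ) * ρ c)),
    fun c => ∑ j : Fin e, Ψ (σ (ζ ^ (j : ℕ) * ρ c)),
    sym_an he hζ (φ := fun r => Ψ (σ r)) (p1.comp_of_eq s1 s2) r1 r2,
    fun j => (ch Q).tendsto_pt.comp (st.comp (rt j)), ?_, ?_⟩
  · have h1 := p2.self_of_nhds
    rw [(ch Q).pt0] at h1
    simp only [r0, mul_zero, s2, map_sum, ← h1]
    simp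
  · filter_upwards [eventually_all.2 fun j => (rt j).eventually (s3.and (s4.and
      (st.eventually p2)))] with c hc
    refine ⟨fun hc0 j k hjk => ?_, fun j => ?_, ?_⟩
    · have h1 := (hc j).2.1
      have h2 := (hc k).2.1
      simp only at hjk
      rw [hjk, h2] at h1
      have h3 : ρ c ≠ 0 := fun h => hc0 (by rw [← r1 c, h, zero_pow he])
      exact Fin.ext (hζ.pow_inj j.2 k.2 (mul_right_cancel₀ h3 h1).symm)
    · have h1 := sub_ev (hc j).1.1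
      rwa [(hc j).1.2, mul_pow, ← pow_mul, mul_comm (j : ℕ) e, pow_mul, hζ.pow_eq_one, one_pow,
        one_mul, r1] at h1
    · rw [map_sum]
      exact Finset.sum_congr rfl fun j _ => (hc j).2.2

theorem loc0 {h : F} (hh : ∀ a, h ≠ algebraMap ℂ F a) (hf : ∀ P, HolAt T f P) :
    Lifts T.lat (fun c => Finsupp.linearCombination ℤ f (Z h c)) 0 := by
  classical
  let S := (Z h 0).support
  let e : S → ℕ := fun Q => (Z h 0 Q).toNat
  have hpos : ∀ Q : S, 0 < ord Q.1 h ∧ Z h 0 Q = ord Q.1 h := fun Q => by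
    have h1 := Finsupp.mem_support_iff.1 Q.2
    rw [Z_apply, map_zero, sub_zero] at h1 ⊢
    omega
  have he : ∀ Q : S, e Q ≠ 0 ∧ ord Q.1 h = e Q := fun Q => by
    have := hpos Q
    simp only [e]
    omega
  choose x G hG hx hG0 hev using fun Q : S => place (he Q).1 (he Q).2 (hf Q.1)
  refine ⟨fun c => ∑ Q, G Q c, Finset.analyticAt_fun_sum _ fun Q _ => hG Q, ?_⟩
  have hsep : ∀ᶠ c in 𝓝 (0 : ℂ), ∀ a b : (Σ Q : S, Fin (e Q)), a.1 ≠ b.1 →
      x a.1 c a.2 ≠ x b.1 c b.2 := by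
    refine eventually_all.2 fun a => eventually_all.2 fun b => ?_
    by_cases hab : a.1 = b.1
    · exact .of_forall fun _ h => absurd hab h
    · exact (ev_ne (hx a.1 a.2) (hx b.1 b.2) fun h => hab (Subtype.ext h)).mono fun _ h _ => h
  filter_upwards [hsep, eventually_all.2 hev] with c h1 h2
  by_cases hc : c = 0
  · subst hc
    rw [Finsupp.linearCombination_apply, Finsupp.sum, ← Finset.sum_coe_sort, map_sum]
    refine Finset.sum_congr rfl fun Q _ => ?_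
    rw [hG0, ← (he Q).2, (hpos Q).2]
  · have hinj : Injective fun a : (Σ Q : S, Fin (e Q)) => x a.1 c a.2 := by
      rintro ⟨Q, j⟩ ⟨Q', j'⟩ hab
      obtain rfl : Q = Q' := by
        by_contra hne
        exact h1 ⟨Q, j⟩ ⟨Q', j'⟩ hne hab
      obtain rfl : j = j' := (h2 Q).1 hc hab
      rfl
    have hle := sd_le hinj (D := Z h c) (pol_nonneg _) fun a => by
      rw [Z_apply]
      exact le_max_of_le_right (((h2 a.1).2.1 a.2).resolve_left (sub_ne_zero.2 (hh c)))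
    have hdg : dg (Z h c) ≤ dg (sd fun a : (Σ Q : S, Fin (e Q)) => x a.1 c a.2) := by
      rw [dg_sd, dg_Z, ← dg_Z h 0, dg_apply, Finsupp.sum, ← Finset.sum_coe_sort,
        Fintype.card_sigma]
      push_cast
      refine le_of_eq (Finset.sum_congr rfl fun Q _ => ?_)
      rw [Fintype.card_fin, ← (he Q).2, (hpos Q).2]
    rw [← eq_of_le_of_dg_le hle hdg, sd, map_sum, map_sum, Fintype.sum_sigma]
    refine Finset.sum_congr rfl fun Q _ => ?_
    rw [← (h2 Q).2.2]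
    simp

theorem loc {h : F} (hh : ∀ a, h ≠ algebraMap ℂ F a) (hf : ∀ P, HolAt T f P) (c₀ : ℂ) :
    Lifts T.lat (fun c => Finsupp.linearCombination ℤ f (Z h c)) c₀ := by
  obtain ⟨G, h1, h2⟩ := loc0 (h := h - algebraMap ℂ F c₀) (fun a ha => hh (a + c₀) (by
    rw [map_add, ← ha, sub_add_cancel])) hf
  have ht : Tendsto (fun c : ℂ => c - c₀) (𝓝 c₀) (𝓝 0) := by
    simpa using (continuous_sub_right c₀).tendsto c₀
  refine ⟨fun c => G (c - c₀), h1.comp_of_eq (analyticAt_id.sub analyticAt_const) (sub_self _),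
    (ht.eventually h2).mono fun c hc => ?_⟩
  rw [← hc]
  simp only [Z, map_sub, sub_sub_sub_cancel_right]

end Wda

open Wda in
theorem wda : WDA := by
  intro F _ _ _ T f hf D hD
  obtain ⟨h, h0, rfl⟩ := hD
  have := T.disc
  rw [← Finsupp.linearCombination_apply]
  by_cases hc : ∃ a, h = algebraMap ℂ F a
  · obtain ⟨a, rfl⟩ := hc
    rw [dv_const, map_zero]
  · rw [not_exists] at hc
    have h1 := glob T.lat (loc hc hf) (loc0 (nc_inv hc) hf) fun c hc0 => by rw [Z_inv hc hc0]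
    simp only [Z, map_zero, sub_zero, inv_inv] at h1
    rw [dv_eq_pol_sub, map_sub, h1, sub_self]

end Vale.Agent.P297Y.Tor
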