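import Vale.Agent.P297Y.Tor.Top
import Vale.Agent.P297Y.Tor.Wda
import Vale.Agent.P297Y.Tor.Ju
import Vale.Agent.P297Y.AJ.Prc

/-! The Albanese torus: the statement follows from the structure of the zero-cycles. -/

namespace Vale.Agent.P297Y.Tor

theorem blochTor_of_core (core : AJ.CORE) : BlochTor := blochTor_of' wda ju AJ.prc core

end Vale.Agent.P297Y.Tor
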