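import Vale.Agent.P297Y.Tor.Sk
import Vale.Agent.P297Z.Surf.BR1
import Vale.Agent.P297Z.Surf.AllOf
import Vale.Agent.P297Z.Surf.RatRes
import Vale.Agent.P297.H2.HalfAll

/-! Restriction of holomorphic maps to curves, and horizontal curves. -/

set_option linter.all false

open Filter Topology

namespace Vale.Agent.P297Y.Tor

open Vale.Agent.P019P
open Vale.Agent.P297 (ClosedPt ZeroCycle Rat RatEquiv IsPrincipalCycle PlaceOver)
open Vale.Agent.P299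
open Vale.Agent.P297Y.AJ (pv pv_mem exists_pv pv_unique)
open Vale.Agent.P297Z

/-- The model of a surface inside its function field. -/
theorem exists_model (X : S.Var) (h2 : S.dim X.toPVar = 2) :
    ∃ (T : Sf.Surf (S.K X.toPVar)) (c : Sf.Pt T.W → ClosedPt X.X), Function.Surjective c ∧
      ∀ p f γ, S.HasValue (X := X.toPVar) f (c p).1 γ ↔ p.Van (f - algebraMap ℂ _ γ) := by
  obtain ⟨A, hA⟩ := X.ample
  obtain ⟨n, W, e, c, hn, hW, hD⟩ := Sf.br1 Sf.model X.toPVar A h2 hA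
  obtain ⟨T, rfl⟩ := Sf.nn _ W hW
  refine ⟨T, c, hD.surj, fun p f γ => ?_⟩
  unfold S.HasValue S.Van Sf.Pt.Van S.cst
  rw [hD.pt, hD.pt]

theorem mem_of_van {K : Type} [Field K] [Algebra ℂ K] {W : Submodule ℂ K} {p : Sf.Pt W} {f : K}
    {γ : ℂ} (h : p.Van (f - algebraMap ℂ K γ)) : f ∈ p.ring := by
  simpa using add_mem h.1 (p.ring.algebraMap_mem γ)

/-- The values of the functions of the base of a fibration. -/
theorem pv_of_val (X : S.Var) (h2 : S.dim X.toPVar = 2) {F : Type} [Field F] [Algebra ℂ F]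
    [CFF ℂ F] (i : F →ₐ[ℂ] S.K X.toPVar) (π : ClosedPt X.X → Plk ℂ F)
    (h : ∀ x f c, pv (π x) f c → S.HasValue (X := X.toPVar) (i f) x.1 c) (x : ClosedPt X.X)
    (f : F) (γ : ℂ) (hf : S.HasValue (X := X.toPVar) (i f) x.1 γ) : pv (π x) f γ := by
  obtain ⟨T, c, hc, hv⟩ := exists_model X h2
  obtain ⟨p, rfl⟩ := hc x
  rw [hv] at hf
  by_cases h1 : f ∈ (π (c p)).1
  · obtain ⟨δ, hδ⟩ := exists_pv h1
    have h3 := hf.sub ((hv _ _ _).1 (h _ _ _ hδ))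
    rw [sub_sub_sub_cancel_left, ← map_sub] at h3
    rwa [← sub_eq_zero.1 (Sf.Pt.van_const h3)]
  · have h0 : f ≠ 0 := fun e => h1 (e ▸ zero_mem _)
    have h3 := (hv _ _ _).1 (h _ f⁻¹ 0 (by simpa [pv] using Jac.inv_mem_one h1))
    rw [map_zero, sub_zero] at h3
    have h4 := h3.mul_left (mem_of_van hf)
    rw [← map_mul, mul_inv_cancel₀ h0, map_one] at h4
    exact (p.not_van_one h4).elim

/-- A function that is regular at a point of a curve is regular at the points nearby. -/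
theorem val_near (X : S.Var) (h2 : S.dim X.toPVar = 2) {E : Type} [Field E] [Algebra ℂ E]
    [CFF ℂ E] {ctr : Plk ℂ E → ClosedPt X.X} {O : Subring (S.K X.toPVar)} {ρ : O →+* E}
    (h : ∀ Q f c, S.HasValue (X := X.toPVar) f (ctr Q).1 c → ∃ h : f ∈ O, pv Q (ρ ⟨f, h⟩) c)
    (Q : Plk ℂ E) {g : S.K X.toPVar} {γ : ℂ} (hg : S.HasValue (X := X.toPVar) g (ctr Q).1 γ) :
    ∃ r : E, pv Q r γ ∧
      ∀ᶠ Q' in 𝓝 Q, S.HasValue (X := X.toPVar) g (ctr Q').1 (Jac.ev Q' r) := by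
  obtain ⟨T, c, hc, hv⟩ := exists_model X h2
  have hL := T.all.toLoc
  choose p hp using fun Q' => hc (ctr Q')
  simp only [← hp, hv] at h hg ⊢
  have hval : ∀ Q', ∀ f ∈ (p Q').ring, ∃ (δ : ℂ) (h : f ∈ O),
      (p Q').Van (f - algebraMap ℂ _ δ) ∧ pv Q' (ρ ⟨f, h⟩) δ := fun Q' f hf => by
    obtain ⟨δ, hδ⟩ := hL.val _ f hf
    obtain ⟨h1, h3⟩ := h Q' f δ hδ
    exact ⟨δ, h1, hδ, h3⟩
  obtain ⟨k, hk⟩ := hL.pt_cover (p Q)
  obtain ⟨m, hm, e, hm'⟩ := hL.pt_chart (p Q) _ (T.x_mem k) hk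
  obtain ⟨a, b, hb, hab⟩ : g ∈ Sf.loc _ m hm.isPrime := e ▸ mem_of_van hg
  obtain ⟨β, bO, b1, b2⟩ := hval Q b (hk.chart_le b.2)
  have β0 : β ≠ 0 := fun e => hb ((hm' b).2 (by simpa [e] using b1))
  choose δ xO x1 x2 using fun j => hval Q (T.x j / T.x k) (hk.2 _ (T.x_mem j))
  obtain ⟨gO, g1⟩ := h Q g γ hg
  refine ⟨_, g1, ?_⟩
  filter_upwards [eventually_all.2 fun j => Jac.nhds_val (pv_mem (x2 j)) univ_mem,
    Jac.nhds_val (pv_mem b2) (U := {0}ᶜ) (isOpen_compl_singleton.mem_nhds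
      (by rwa [Jac.ev_eq b2]))] with Q' h3 h4
  obtain ⟨j, hj⟩ := hL.pt_cover (p Q')
  have h5 : (p Q').In (T.x k) := (Sf.Pt.in_iff hj (T.x_mem j) (T.x_mem k)).2 fun h5 => by
    obtain ⟨h6, h7⟩ := h Q' _ 0 (by simpa using h5)
    have h8 := mul_mem_Mge h7 (Jac.mem_iff.1 (h3 j).1)
    rw [map_zero, sub_zero, ← map_mul, add_zero] at h8
    have h9 : (⟨T.x k / T.x j, h6⟩ * ⟨T.x j / T.x k, xO j⟩ : O) = 1 := Subtype.ext (by
      change T.x k / T.x j * (T.x j / T.x k) = 1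
      field_simp [T.x_ne j, T.x_ne k])
    rw [h9, map_one] at h8
    exact one_ne_zero (Jac.cst_eq_zero (P := Q') (c := 1) (by rwa [map_one]))
  obtain ⟨h6, h7⟩ := Sf.Pt.inv_mem (h5.chart_le b.2) fun h6 => by
    obtain ⟨_, h7⟩ := h Q' b 0 (by simpa using h6)
    exact h4.2 (Jac.ev_eq h7)
  obtain ⟨ε, _, h8, h9⟩ := hval Q' g (by
    rw [(eq_mul_inv_iff_mul_eq₀ h6).2 hab]
    exact mul_mem (h5.chart_le a.2) h7)
  rwa [Jac.ev_eq h9]

theorem pull : PULL := by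
  rintro X h2 E _ _ _ ctr ⟨O, ρ, h⟩ T f hf Q
  obtain ⟨N, g, W, Φ, hW, hΦ, ⟨z, hz, hg⟩, hf'⟩ := hf (ctr Q)
  choose r r1 r2 using fun i => val_near X h2 h Q (hg i)
  have a1 : AnalyticAt ℂ (fun s i => Jac.ev ((Jac.ch Q).pt s) (r i)) 0 :=
    analyticAt_pi_iff.2 fun i => ((Jac.ch Q).an _ (pv_mem (r1 i))).2
  have a2 : ∀ᶠ s in 𝓝 (0 : ℂ), (fun i => Jac.ev ((Jac.ch Q).pt s) (r i)) ∈ W :=
    a1.continuousAt.eventually (hW.mem_nhds (by
      simpa only [(Jac.ch Q).pt0, Jac.ev_eq (r1 _)] using hz))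
  refine ⟨fun s => Φ fun i => Jac.ev ((Jac.ch Q).pt s) (r i), ?_, ?_⟩
  · refine Complex.analyticAt_iff_eventually_differentiableAt.2 ?_
    filter_upwards [a1.eventually_analyticAt, a2] with s h3 h4
    exact (hΦ.differentiableAt (hW.mem_nhds h4)).comp s h3.differentiableAt
  · filter_upwards [a2, (Jac.ch Q).tendsto_pt.eventually (eventually_all.2 r2)] with s h3 h4
    exact hf' _ _ h3 h4

/-- A function with a pole at a single place. -/
theorem exists_one_pole {F : Type} [Field F] [Algebra ℂ F] [CFF ℂ F] (P : Plk ℂ F) :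
    ∃ f : F, (∀ a, f ≠ algebraMap ℂ F a) ∧ ∀ Q, Q ≠ P → f ∈ Q.1 := by
  obtain ⟨f, h1, h2⟩ : ∃ f ∈ LL ℂ (Finsupp.single P (gen ℂ F + 1 : ℤ)),
      f ∉ LL ℂ (0 : Plk ℂ F →₀ ℤ) := by
    by_contra h
    have h1 := Submodule.finrank_mono (s := LL ℂ (Finsupp.single P (gen ℂ F + 1 : ℤ)))
      (t := LL ℂ (0 : Plk ℂ F →₀ ℤ)) fun x hx => not_not.1 fun h1 => h ⟨x, hx, h1⟩
    have h2 := RR (Finsupp.single P (gen ℂ F + 1 : ℤ))
    rw [l_zero] at h1
    rw [dg_sgl] at h2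
    omega
  refine ⟨f, ?_, fun Q hQ => Jac.mem_of_LL h1 (Finsupp.single_eq_of_ne hQ)⟩
  rintro a rfl
  exact h2 (Or.inr fun Q => by simp [ord_const])

theorem hor : HOR := by
  intro X h2 F _ _ _ i π h
  obtain ⟨T, c, hc, hv⟩ := exists_model X h2
  have hL := T.all.toLoc
  letI : Algebra F (S.K X.toPVar) := i.toRingHom.toAlgebra
  haveI : IsScalarTower ℂ F (S.K X.toPVar) :=
    IsScalarTower.of_algebraMap_eq fun a => (i.commutes a).symm
  obtain ⟨y, hy⟩ : ∃ y : S.K X.toPVar, Transcendental F y := by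
    by_contra h1
    haveI : Algebra.IsAlgebraic F (S.K X.toPVar) :=
      ⟨fun y => not_not.1 fun h3 => h1 ⟨y, h3⟩⟩
    obtain ⟨t, ht, hfd⟩ := CFF.ex (k := ℂ) (F := F)
    have h3 := (CFld_basis ht hfd).cardinalMk_eq_trdeg
    have h4 := trdeg_add_eq ℂ F (A := S.K X.toPVar)
    rw [T.model.td, ← h3, trdeg_eq_zero] at h4
    norm_num at h4
  obtain ⟨V, V1, V2, V3⟩ := CPole_exists_val hy
  obtain ⟨k, hk⟩ := hL.center V fun a => by
    rw [IsScalarTower.algebraMap_apply ℂ F]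
    exact V1 _
  have hA : ∀ a : Sf.chart T.W (T.x k), (a : S.K X.toPVar) ∈ V := fun a =>
    Sf.chart_le (B := { V.toSubring with
      algebraMap_mem' := fun a => by
        rw [IsScalarTower.algebraMap_apply ℂ F]
        exact V1 _ }) hk a.2
  let φ : Sf.chart T.W (T.x k) →+* V := (Sf.chart T.W (T.x k)).val.toRingHom.codRestrict V hA
  let p := (IsLocalRing.maximalIdeal V).comap φ
  have hp : p.IsPrime := Ideal.comap_isPrime _ _
  have hp' : ∀ a, a ∉ p ↔ (a : S.K X.toPVar) ≠ 0 ∧ (a : S.K X.toPVar)⁻¹ ∈ V := fun a => by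
    change φ a ∉ IsLocalRing.maximalIdeal V ↔ _
    rw [← V.coe_mem_nonunits_iff, V.mem_nonunits_iff_or, not_or, not_not]
    rfl
  have hV : ∀ f ∈ V, f ≠ 0 → f⁻¹ ∈ Sf.loc _ p hp → f ∈ Sf.loc _ p hp := by
    rintro f h3 f0 ⟨a, b, hb, hab⟩
    obtain ⟨h4, h5⟩ := (hp' b).1 hb
    refine ⟨b, a, (hp' a).2 ⟨hab ▸ mul_ne_zero (inv_ne_zero f0) h4, ?_⟩, ?_⟩
    · rw [← hab, mul_inv, inv_inv]
      exact mul_mem h3 h5
    · rw [← hab, mul_inv_cancel_left₀ f0]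
  obtain ⟨C, hC⟩ := hL.crv_of_prime _ (T.x_mem k) (T.x_ne k) p hp (fun h3 => by
    haveI := T.model.frac _ (T.x_mem k) (T.x_ne k)
    obtain ⟨a, b, hb, hab⟩ := IsFractionRing.div_surjective (A := Sf.chart T.W (T.x k)) y⁻¹
    refine V3 (hab ▸ ?_)
    rw [div_eq_mul_inv]
    exact mul_mem (hA a) ((hp' b).1 (by
      rw [h3]
      exact nonZeroDivisors.ne_zero hb)).2) fun hm => by
    let x : Sf.Pt T.W := ⟨Sf.loc _ p hp, _, T.x_mem k, T.x_ne k, p, hm, rfl⟩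
    obtain ⟨t, t0, t1⟩ := exists_unif (π (c x))
    have h3 := (hv x _ _).1 (h _ t 0 (Or.inr (by simp [t1])))
    rw [map_zero, sub_zero] at h3
    have h4 : i t ≠ 0 := (map_ne_zero i).2 t0
    refine h3.2.resolve_left h4 (hV _ ?_ (inv_ne_zero h4) (by rw [inv_inv]; exact h3.1))
    rw [← map_inv₀]
    exact V1 _
  have hF : ∀ f, i f ∈ C.pl.ring := fun f => by
    by_cases f0 : i f = 0
    · rw [f0]
      exact zero_mem _
    exact (C.pl.ring.mem_or_inv_mem _).elim id fun h3 =>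
      (hC _).2 (hV _ (V1 f) f0 ((hC _).1 h3))
  haveI := Sf.Surf.isFF hL.toLoc1 C
  haveI := P297.H2.cff C.Fn
  choose w hw using (P297.H2.toPlk_bij (E := C.Fn)).2
  have key : ∀ Q f γ, S.HasValue (X := X.toPVar) f (c (Sf.Surf.ctr hL.toLoc1 C (w Q))).1 γ →
      ∃ h : f ∈ C.pl.ring.toSubring, pv Q (C.resid ⟨f, h⟩) γ := fun Q f γ h3 => by
    rw [hv] at h3
    have h4 := Sf.Surf.ctr_le hL.toLoc1 C (w Q)
    obtain ⟨h5, h6⟩ := (Sf.Pt.van_iff _).1 h3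
    have h7 := Len.dom (C.rho (Sf.Crv.on_of_le h4)) ((Sf.Crv.le_cv_iff _).1 h4) h6
    have h8 : C.rho (Sf.Crv.on_of_le h4) ⟨_, h5⟩ =
        C.resid ⟨f, (h4 (mem_of_van h3)).1⟩ - algebraMap ℂ _ γ :=
      C.resid.map_sub ⟨f, (h4 (mem_of_van h3)).1⟩ ⟨_, C.const_mem γ⟩
    rw [h8, ← P297.H2.ord_toPlk, hw] at h7
    exact ⟨_, h7⟩
  refine ⟨C.Fn, inferInstance, inferInstance, inferInstance,
    fun Q => c (Sf.Surf.ctr hL.toLoc1 C (w Q)), ⟨C.pl.ring.toSubring, C.resid, key⟩, fun P => ?_⟩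
  let j : F →+* C.Fn := C.resid.comp (i.toRingHom.codRestrict C.pl.ring hF)
  obtain ⟨f, f1, f2⟩ := exists_one_pole P
  obtain ⟨Q, hQ⟩ := exists_pole (k := ℂ) (z := j f) fun a e => f1 a (j.injective (e.trans (by
    change C.resid _ = C.resid _
    congr 1
    exact Subtype.ext (i.commutes a).symm)))
  refine ⟨Q, not_not.1 fun h3 => ?_⟩
  obtain ⟨γ, hγ⟩ := exists_pv (f2 _ h3)
  obtain ⟨_, h4⟩ := key Q _ γ (h _ f γ hγ)
  rcases (mem_iff_ord Q (j f)).1 (pv_mem h4) with h5 | h5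
  · rw [h5, ord_zero] at hQ
    omega
  · omega

end Vale.Agent.P297Y.Tor
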