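import Vale.Agent.P297Y.Tor.Stmt
import Vale.Agent.P297Y.AJ.Sk
import Vale.Agent.P297Y.Jac.Fin

/-! The Albanese torus: definitions and statements of the blocks. -/

set_option linter.all false

open Filter Topology

namespace Vale.Agent.P297Y.Tor

open Vale.Agent.P019P
open Vale.Agent.P297 (ClosedPt ZeroCycle Rat RatEquiv IsPrincipalCycle)
open Vale.Agent.P299
open Vale.Agent.P297Y.AJ (pv)

/-- The map `f` from a curve to a torus is holomorphic at the place `P`. -/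
def HolAt {F : Type} [Field F] [Algebra ℂ F] [CFF ℂ F] (T : Torus) (f : Plk ℂ F → T.G)
    (P : Plk ℂ F) : Prop :=
  ∃ Ψ : ℂ → Fin T.g → ℂ, AnalyticAt ℂ Ψ 0 ∧
    ∀ᶠ s in 𝓝 (0 : ℂ), f ((Jac.ch P).pt s) = T.lat.mkQ (Ψ s)

/-- A holomorphic map from a curve to a torus kills the principal divisors. -/
def WDA : Prop := ∀ (F : Type) [Field F] [Algebra ℂ F] [CFF ℂ F] (T : Torus)
  (f : Plk ℂ F → T.G), (∀ P, HolAt T f P) → ∀ D ∈ prn ℂ F, (D.sum fun Q n => n • f Q) = 0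

/-- The Jacobian with its universal property. -/
def JU : Prop := ∀ (F : Type) [Field F] [Algebra ℂ F] [CFF ℂ F],
  ∃ (J : Torus) (a : Plk ℂ F → J.G),
    (∀ D : Plk ℂ F →₀ ℤ, dg D = 0 → (D.sum fun P n => n • a P) = 0 → D ∈ prn ℂ F) ∧
    (∀ y, ∃ D : Plk ℂ F →₀ ℤ, dg D = 0 ∧ (D.sum fun P n => n • a P) = y) ∧
    (∀ P : Plk ℂ F, ∃ (t u : F) (c : ℂ) (ε : ℝ) (Φ : ℂ → Fin J.g → ℂ), 0 < ε ∧
      pv P t 0 ∧ pv P u c ∧ AnalyticOnNhd ℂ Φ (Metric.ball 0 ε) ∧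
      ∀ (Q : Plk ℂ F) (s y : ℂ), pv Q t s → pv Q u y → ‖s‖ < ε → ‖y - c‖ < ε →
        a Q = J.lat.mkQ (Φ s)) ∧
    ∀ (T : Torus) (f : Plk ℂ F → T.G), (∀ P, HolAt T f P) →
      ∃ ψ : J.G →+ T.G, IsHom J T ψ ∧ ∀ P Q, f P - f Q = ψ (a P - a Q)

/-- The map `ctr` comes from a morphism from the curve with function field `E` to `X`. -/
def IsCrv (X : S.PVar) {E : Type} [Field E] [Algebra ℂ E] [CFF ℂ E]
    (ctr : Plk ℂ E → ClosedPt X.X) : Prop :=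
  ∃ (O : Subring (S.K X)) (ρ : O →+* E),
    ∀ Q f c, S.HasValue (X := X) f (ctr Q).1 c → ∃ h : f ∈ O, pv Q (ρ ⟨f, h⟩) c

/-- A holomorphic map restricts to a holomorphic map on a curve. -/
def PULL : Prop := ∀ (X : S.Var), S.dim X.toPVar = 2 →
  ∀ (E : Type) [Field E] [Algebra ℂ E] [CFF ℂ E] (ctr : Plk ℂ E → ClosedPt X.X),
  IsCrv X.toPVar ctr → ∀ (T : Torus) (f : ClosedPt X.X → T.G), Holo X.toPVar T f →
  ∀ Q, HolAt T (f ∘ ctr) Q

/-- A curve that maps onto the base of a fibration. -/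
def HOR : Prop := ∀ (X : S.Var), S.dim X.toPVar = 2 →
  ∀ (F : Type) [Field F] [Algebra ℂ F] [CFF ℂ F] (i : F →ₐ[ℂ] S.K X.toPVar)
    (π : ClosedPt X.X → Plk ℂ F),
  (∀ x f c, pv (π x) f c → S.HasValue (X := X.toPVar) (i f) x.1 c) →
  ∃ (E : Type) (_ : Field E) (_ : Algebra ℂ E) (_ : CFF ℂ E) (ctr : Plk ℂ E → ClosedPt X.X),
    IsCrv X.toPVar ctr ∧ Function.Surjective (π ∘ ctr)

/-- block: the universal property from the vanishing on principal divisors -/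
def B_JU : Prop := WDA → JU
/-- block: the horizontal curve -/
def B_HOR : Prop := AJ.E1 → AJ.CTR → HOR
/-- block: the assembly -/
def B_TOP : Prop := WDA → JU → PULL → HOR → AJ.PRC → AJ.CORE → BlochTor

theorem blochTor_of (wda : WDA) (ju : B_JU) (pull : PULL) (hor : B_HOR) (top : B_TOP)
    (e1 : AJ.E1) (ctr : AJ.CTR) (prc : AJ.PRC) (core : AJ.CORE) : BlochTor :=
  top wda (ju wda) pull (hor e1 ctr) prc core

end Vale.Agent.P297Y.Tor
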