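import Vale.Agent.P299.S.Defs
import Vale.Agent.P297.Defs
import Mathlib.Algebra.Module.ZLattice.Basic
import Mathlib.Analysis.Calculus.FDeriv.Defs

/-!
# The Albanese torus and the conjecture of Bloch
-/

namespace Vale.Agent.P297Y.Tor

open Vale.Agent.P299.S Vale.Agent.P297

/-- A complex torus `ℂ^g / Λ`, where `Λ` is a discrete subgroup that spans `ℂ^g` over `ℝ`. -/
structure Torus where
  /-- the dimension -/
  g : ℕ
  /-- the lattice -/
  lat : Submodule ℤ (Fin g → ℂ)
  [disc : DiscreteTopology lat]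
  full : IsZLattice ℝ lat

/-- The group of the points of the torus `T`. -/
abbrev Torus.G (T : Torus) : Type := (Fin T.g → ℂ) ⧸ T.lat

/-- The homomorphism `ψ` of tori is holomorphic: it is induced by a complex linear map. -/
def IsHom (T T' : Torus) (ψ : T.G →+ T'.G) : Prop :=
  ∃ L : (Fin T.g → ℂ) →ₗ[ℂ] (Fin T'.g → ℂ), ∀ v, ψ (T.lat.mkQ v) = T'.lat.mkQ (L v)

/-- The map `f` from the closed points of `X` to the torus `T` is holomorphic: near every point `x`
it is the class of `Φ (h_1, …, h_N)`, where the `h_i` are rational functions regular at `x` and `Φ`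
is holomorphic on an open neighbourhood `W` of `(h_1 (x), …, h_N (x))` in `ℂ^N`. -/
def Holo (X : PVar) (T : Torus) (f : ClosedPt X.X → T.G) : Prop :=
  ∀ x : ClosedPt X.X, ∃ (N : ℕ) (h : Fin N → K X) (W : Set (Fin N → ℂ))
    (Φ : (Fin N → ℂ) → Fin T.g → ℂ), IsOpen W ∧ DifferentiableOn ℂ Φ W ∧
    (∃ z ∈ W, ∀ i, HasValue (h i) x.1 (z i)) ∧
    ∀ y : ClosedPt X.X, ∀ z ∈ W, (∀ i, HasValue (h i) y.1 (z i)) → f y = T.lat.mkQ (Φ z)

/-- `a : X → T` is the Albanese map for the base point `x₀`: every holomorphic map from `X` to a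
torus that maps `x₀` to the origin factors through `a` by a unique holomorphic homomorphism. -/
def IsAlb (X : PVar) (x₀ : ClosedPt X.X) (T : Torus) (a : ClosedPt X.X → T.G) : Prop :=
  Holo X T a ∧ a x₀ = 0 ∧ ∀ (T' : Torus) (f : ClosedPt X.X → T'.G), Holo X T' f → f x₀ = 0 →
    ∃! ψ : T.G →+ T'.G, IsHom T T' ψ ∧ ∀ x, f x = ψ (a x)

/-- The group of zero-cycles modulo rational equivalence. -/
abbrev CH0 (X : PVar) : Type := ZeroCycle X.X ⧸ Rat X.str

/-- The class of a closed point. -/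
noncomputable def cl (X : PVar) (x : ClosedPt X.X) : CH0 X :=
  QuotientAddGroup.mk (Finsupp.single x 1)

/-- The degree and the Albanese homomorphism are defined on `CH0 X`, and the Albanese homomorphism
is a bijection from the kernel of the degree onto `T`. -/
def AlbIso (X : PVar) (T : Torus) (a : ClosedPt X.X → T.G) : Prop :=
  ∃ (deg : CH0 X →+ ℤ) (alb : CH0 X →+ T.G), (∀ x, deg (cl X x) = 1) ∧
    (∀ x, alb (cl X x) = a x) ∧ Function.Bijective fun z : deg.ker => alb z.1

/-- The conjecture of Bloch. -/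
def BlochTor : Prop :=
  ∀ (X : Var) (κ : Div X.toPVar), dim X.toPVar = 2 → IsCanonical κ → ¬ HasSec κ →
    ∀ x₀ : ClosedPt X.X,
      (∃ (T : Torus) (a : ClosedPt X.X → T.G), IsAlb X.toPVar x₀ T a) ∧
      ∀ (T : Torus) (a : ClosedPt X.X → T.G), IsAlb X.toPVar x₀ T a → AlbIso X.toPVar T a

end Vale.Agent.P297Y.Tor
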