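import Vale.Agent.P297Y.Tor.Pull

/-! The Albanese torus: the assembly. -/

set_option linter.all false

open Filter Topology

namespace Vale.Agent.P297Y.Tor

open Vale.Agent.P019P
open Vale.Agent.P297 (ClosedPt ZeroCycle Rat RatEquiv IsPrincipalCycle)
open Vale.Agent.P299
open Vale.Agent.P297Y.AJ (pv)

section ex

variable {α β G G' : Type} [AddCommGroup G] [AddCommGroup G']

/-- The extension of a map on points to cycles. -/
noncomputable def ex (f : α → G) : (α →₀ ℤ) →+ G :=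
  Finsupp.liftAddHom fun x => zmultiplesHom G (f x)

theorem ex_apply (f : α → G) (z : α →₀ ℤ) : ex f z = z.sum fun x n => n • f x := rfl

theorem ex_single (f : α → G) (x : α) (n : ℤ) : ex f (Finsupp.single x n) = n • f x :=
  Finsupp.sum_single_index (h := fun x n => n • f x) (zero_smul ℤ _)

theorem ex_map (π : α → β) (f : β → G) (z : α →₀ ℤ) :
    ex f (Finsupp.mapDomain π z) = ex (f ∘ π) z := by
  induction z using Finsupp.induction_linear with
  | zero => simp
  | add a b ha hb => rw [Finsupp.mapDomain_add, map_add, map_add, ha, hb]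
  | single x n => rw [Finsupp.mapDomain_single, ex_single, ex_single]; rfl

theorem dg_map (π : α → β) (z : α →₀ ℤ) : dg (Finsupp.mapDomain π z) = dg z := by
  induction z using Finsupp.induction_linear with
  | zero => simp
  | add a b ha hb => rw [Finsupp.mapDomain_add, map_add, map_add, ha, hb]
  | single x n => rw [Finsupp.mapDomain_single, dg_sgl, dg_sgl]

theorem ex_hom (ψ : G →+ G') (f : α → G) (z : α →₀ ℤ) :
    ψ (ex f z) = ex (fun x => ψ (f x)) z := by
  induction z using Finsupp.induction_linear with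
  | zero => simp
  | add a b ha hb => rw [map_add, map_add, map_add, ha, hb]
  | single x n => rw [ex_single, ex_single, map_zsmul]

theorem ex_sub (f : α → G) (c : G) (z : α →₀ ℤ) :
    ex (fun x => f x - c) z = ex f z - dg z • c := by
  induction z using Finsupp.induction_linear with
  | zero => simp
  | add a b ha hb =>
    rw [map_add, map_add, map_add, ha, hb, add_smul]
    abel
  | single x n => rw [ex_single, ex_single, dg_sgl, smul_sub]

theorem ex_sub0 (f : α → G) (c : G) {z : α →₀ ℤ} (hz : dg z = 0) :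
    ex (fun x => f x - c) z = ex f z := by rw [ex_sub, hz, zero_smul, sub_zero]

end ex

theorem isHom_id (T : Torus) : IsHom T T (AddMonoidHom.id _) := ⟨LinearMap.id, fun _ => rfl⟩

theorem IsHom.comp {T T' T'' : Torus} {ψ : T.G →+ T'.G} {φ : T'.G →+ T''.G} (h' : IsHom T' T'' φ)
    (h : IsHom T T' ψ) : IsHom T T'' (φ.comp ψ) := by
  obtain ⟨L, hL⟩ := h
  obtain ⟨L', hL'⟩ := h'
  exact ⟨L'.comp L, fun v => by rw [AddMonoidHom.comp_apply, hL, hL', LinearMap.comp_apply]⟩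

/-- A homomorphism is holomorphic if it is so after composition with an epimorphism. -/
theorem IsHom.of_comp {T T' T'' : Torus} {ψ : T.G →+ T'.G} {φ : T'.G →+ T''.G}
    (h : IsHom T T' ψ) (hs : Function.Surjective ψ) (h' : IsHom T T'' (φ.comp ψ)) :
    IsHom T' T'' φ := by
  obtain ⟨L, hL⟩ := h
  obtain ⟨L', hL'⟩ := h'
  have h1 : LinearMap.range L = ⊤ := by
    by_contra h1
    obtain ⟨l, l0, hl⟩ := (LinearMap.range L).exists_le_ker_of_lt_top (lt_top_iff_ne_top.2 h1)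
    haveI := T'.disc
    haveI : Countable T'.lat := TopologicalSpace.separableSpace_iff_countable.1 inferInstance
    haveI : Uncountable ℂ := Complex.ofReal_injective.uncountable
    refine not_countable (α := ℂ) (Function.Surjective.countable
      (f := fun v : T'.lat => l v) fun c => ?_)
    obtain ⟨v, rfl⟩ := l.surjective_of_ne_zero l0 c
    obtain ⟨t, ht⟩ := hs (T'.lat.mkQ v)
    obtain ⟨u, rfl⟩ := T.lat.mkQ_surjective t
    rw [hL, eq_comm] at ht
    refine ⟨⟨v - L u, (Submodule.Quotient.eq _).1 ht⟩, ?_⟩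
    simp [show l (L u) = 0 from hl ⟨u, rfl⟩]
  obtain ⟨R, hR⟩ := L.exists_rightInverse_of_surjective h1
  refine ⟨L'.comp R, fun v => ?_⟩
  rw [LinearMap.comp_apply, ← hL', AddMonoidHom.comp_apply, hL, ← LinearMap.comp_apply, hR]
  rfl

/-- The properties that characterise the Albanese map. -/
structure Good (X : S.PVar) (x₀ : ClosedPt X.X) (T : Torus) (a : ClosedPt X.X → T.G) : Prop where
  holo : Holo X T a
  base : a x₀ = 0
  inj : ∀ z, dg z = 0 → ex a z = 0 → z ∈ Rat X.str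
  surj : ∀ t, ∃ z, dg z = 0 ∧ ex a z = t
  lin : ∀ (T' : Torus) (ψ : T.G →+ T'.G), (Holo X T' fun x => ψ (a x)) → IsHom T T' ψ

section

variable {X : S.PVar} {x₀ : ClosedPt X.X} {T T' : Torus} {a : ClosedPt X.X → T.G}
  {a' : ClosedPt X.X → T'.G}

theorem Good.isAlb (wd : ∀ T f, Holo X T f → ∀ z ∈ Rat X.str, ex f z = 0) (h : Good X x₀ T a) :
    IsAlb X x₀ T a := by
  refine ⟨h.holo, h.base, fun T' f hf f0 => ?_⟩
  choose s s0 hs using h.surj
  have key : ∀ z, dg z = 0 → ex f (s (ex a z)) = ex f z := fun z hz => by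
    have h1 := wd T' f hf _ (h.inj (s (ex a z) - z) (by rw [map_sub, s0, hz, sub_zero])
      (by rw [map_sub, hs, sub_self]))
    rwa [map_sub, sub_eq_zero] at h1
  let ψ : T.G →+ T'.G := AddMonoidHom.mk' (fun t => ex f (s t)) fun t t' => by
    have h1 := key (s t + s t') (by rw [map_add, s0, s0, add_zero])
    rwa [map_add, hs, hs, map_add] at h1
  have hψ : ∀ x, f x = ψ (a x) := fun x => by
    have h1 := key (Finsupp.single x 1 - Finsupp.single x₀ 1) (by simp [dg_sgl])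
    simp only [map_sub, ex_single, one_smul, f0, h.base, sub_zero] at h1
    exact h1.symm
  refine ⟨ψ, ⟨h.lin T' ψ (by rwa [← funext hψ]), hψ⟩, fun ψ' h' => AddMonoidHom.ext fun t => ?_⟩
  rw [← hs t, ex_hom, ex_hom, ← funext hψ, ← funext h'.2]

theorem Good.albIso (wd : ∀ T f, Holo X T f → ∀ z ∈ Rat X.str, ex f z = 0)
    (dr : ∀ z ∈ Rat X.str, dg z = 0) (h : Good X x₀ T a) (h' : IsAlb X x₀ T' a') :
    AlbIso X T' a' := by
  obtain ⟨ψ, ⟨ψ1, ψ2⟩, -⟩ := h'.2.2 T a h.holo h.base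
  obtain ⟨φ, ⟨φ1, φ2⟩, -⟩ := (h.isAlb wd).2.2 T' a' h'.1 h'.2.1
  have e : φ.comp ψ = AddMonoidHom.id _ := (h'.2.2 T' a' h'.1 h'.2.1).unique
    ⟨φ1.comp ψ1, fun x => by rw [AddMonoidHom.comp_apply, ← ψ2, ← φ2]⟩ ⟨isHom_id _, fun _ => rfl⟩
  refine ⟨QuotientAddGroup.lift _ dg dr, QuotientAddGroup.lift _ (ex a') (wd T' a' h'.1),
    fun x => dg_sgl x 1, fun x => (ex_single a' x 1).trans (one_smul _ _), ?_, fun t => ?_⟩
  · refine (injective_iff_map_eq_zero ((QuotientAddGroup.lift _ (ex a') (wd T' a' h'.1)).comp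
      (AddSubgroup.subtype _))).2 ?_
    rintro ⟨z, hz⟩ h1
    obtain ⟨z, rfl⟩ := QuotientAddGroup.mk_surjective z
    refine Subtype.ext ((QuotientAddGroup.eq_zero_iff z).2 (h.inj z hz ?_))
    rw [funext ψ2, ← ex_hom, show ex a' z = 0 from h1, map_zero]
  · obtain ⟨z, hz, h1⟩ := h.surj (ψ t)
    refine ⟨⟨QuotientAddGroup.mk z, hz⟩, ?_⟩
    change ex a' z = t
    rw [funext φ2, ← ex_hom, h1]
    exact DFunLike.congr_fun e t

/-- The torus of dimension zero. -/
def pt : Torus := ⟨0, ⊥, ⟨Subsingleton.elim _ _⟩⟩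

instance : Subsingleton pt.G :=
  pt.lat.mkQ_surjective.subsingleton (α := Fin 0 → ℂ)

theorem good_pt (x₀ : ClosedPt X.X) (h : ∀ x y : ClosedPt X.X, RatEquiv X.str x y) :
    Good X x₀ pt fun _ => 0 := by
  refine ⟨fun x => ⟨0, Fin.elim0, Set.univ, 0, isOpen_univ, differentiableOn_const 0,
    ⟨0, trivial, fun i => i.elim0⟩, fun _ _ _ _ => Subsingleton.elim _ _⟩, rfl, fun z hz _ => ?_,
    fun t => ⟨0, map_zero _, Subsingleton.elim _ _⟩, fun T' ψ _ => ⟨0, fun v => ?_⟩⟩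
  · have h1 : ∀ z : ZeroCycle X.X, z - dg z • Finsupp.single x₀ 1 ∈ Rat X.str := fun z => by
      induction z using Finsupp.induction_linear with
      | zero => simp
      | add a b ha hb =>
        convert add_mem ha hb using 1
        rw [map_add, add_smul]
        abel
      | single x n =>
        rw [dg_sgl, ← Finsupp.smul_single_one x n, ← smul_sub]
        exact zsmul_mem (h x x₀) n
    simpa [hz] using h1 z
  · rw [Subsingleton.elim (pt.lat.mkQ v) 0, map_zero, LinearMap.zero_apply, map_zero]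

end

theorem top : B_TOP := by
  intro wda ju pull hor prc core X κ h2 hκ hp x₀
  have wd : ∀ T f, Holo X.toPVar T f → ∀ z ∈ Rat X.str, ex f z = 0 := fun T f hf z hz => by
    refine (AddSubgroup.closure_le (ex f).ker).2 (fun z hz => ?_) hz
    obtain ⟨E, _, _, _, ctr, O, ρ, D, hD, rfl, hc⟩ := prc _ z hz
    exact (ex_map ctr f D).trans (wda E T _ (pull X h2 E ctr ⟨O, ρ, hc⟩ T f hf) D hD)
  have dr : ∀ z ∈ Rat X.str, dg z = 0 := fun z hz => by
    refine (AddSubgroup.closure_le (dg : ZeroCycle X.X →+ ℤ).ker).2 (fun z hz => ?_) hz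
    obtain ⟨E, _, _, _, ctr, O, ρ, D, ⟨u, -, rfl⟩, rfl, -⟩ := prc _ z hz
    exact (dg_map ctr _).trans (dg_dv u)
  suffices h : ∃ T a, Good X.toPVar x₀ T a by
    obtain ⟨T, a, h⟩ := h
    exact ⟨⟨T, a, h.isAlb wd⟩, fun T' a' h' => h.albIso wd dr h'⟩
  obtain h | ⟨F, _, _, _, i, π, hπ, h⟩ := core X κ h2 hκ hp
  · exact ⟨pt, _, good_pt x₀ h⟩
  obtain ⟨J, a, a1, a2, a3, -⟩ := ju F
  obtain ⟨E, _, _, _, ctr, hc, hs⟩ := hor X h2 F i π hπ
  have hh : Holo X.toPVar J fun x => a (π x) - a (π x₀) := fun x => by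
    obtain ⟨t, u, c, ε, Φ, ε0, h1, h3, h4, h5⟩ := a3 (π x)
    obtain ⟨v, hv⟩ := J.lat.mkQ_surjective (a (π x₀))
    refine ⟨2, ![i t, i u], {z | ‖z 0‖ < ε ∧ ‖z 1 - c‖ < ε}, fun z => Φ (z 0) - v,
      IsOpen.inter (isOpen_lt (f := fun z : Fin 2 → ℂ => ‖z 0‖) (by fun_prop) continuous_const)
        (isOpen_lt (f := fun z : Fin 2 → ℂ => ‖z 1 - c‖) (by fun_prop) continuous_const),
      fun z hz => ?_, ⟨![0, c], by simp [ε0], Fin.forall_fin_two.2 ⟨hπ x t 0 h1, hπ x u c h3⟩⟩,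
      fun y z hz hy => ?_⟩
    · exact (((h4 (z 0) (mem_ball_zero_iff.2 hz.1)).differentiableAt.comp z
        (differentiableAt_apply 0 z)).sub_const v).differentiableWithinAt
    · rw [map_sub, hv, ← h5 (π y) _ _ (pv_of_val X h2 i π hπ y t _ (hy 0))
        (pv_of_val X h2 i π hπ y u _ (hy 1)) hz.1 hz.2]
  have hsu : ∀ t, ∃ D, dg D = 0 ∧ ex (fun Q => a (π (ctr Q)) - a (π x₀)) D = t := fun t => by
    obtain ⟨D, h1, rfl⟩ := a2 t
    obtain ⟨D', rfl⟩ := Finsupp.mapDomain_surjective hs D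
    rw [dg_map] at h1
    exact ⟨D', h1, by rw [ex_sub0 _ _ h1, ← ex_apply, ex_map]; rfl⟩
  refine ⟨J, _, hh, sub_self _, fun z hz h1 => h z (a1 _ ((dg_map π z).trans hz) ?_), fun t => ?_,
    fun T ψ hψ => ?_⟩
  · rw [← ex_apply, ex_map]
    exact (ex_sub0 _ _ hz).symm.trans h1
  · obtain ⟨D, h1, rfl⟩ := hsu t
    exact ⟨_, (dg_map ctr D).trans h1, ex_map ctr _ D⟩
  obtain ⟨J', a', -, b2, -, b4⟩ := ju E
  obtain ⟨P₀⟩ := nonempty_Plk ℂ E
  have key : ∀ {G : Type} [AddCommGroup G] (f : Plk ℂ E → G) (φ : J'.G →+ G),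
      (∀ P Q, f P - f Q = φ (a' P - a' Q)) → ∀ D, dg D = 0 → φ (ex a' D) = ex f D :=
    fun f φ h1 D hD => by
      rw [← ex_sub0 a' (a' P₀) hD, ex_hom, ← ex_sub0 f (f P₀) hD]
      simp only [h1]
  obtain ⟨ψ₁, c1, d1⟩ := b4 J _ (pull X h2 E ctr hc J _ hh)
  obtain ⟨ψ₂, c2, d2⟩ := b4 T _ (pull X h2 E ctr hc T _ hψ)
  refine c1.of_comp (fun t => ?_) ?_
  · obtain ⟨D, h1, rfl⟩ := hsu t
    exact ⟨_, key _ _ d1 D h1⟩
  · convert c2
    ext t
    obtain ⟨D, h1, rfl⟩ := b2 t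
    rw [← ex_apply, AddMonoidHom.comp_apply, key _ _ d1 D h1, key _ _ d2 D h1, ex_hom]
    rfl

theorem blochTor_of' (wda : WDA) (ju : B_JU) (prc : AJ.PRC) (core : AJ.CORE) : BlochTor :=
  top wda (ju wda) pull hor prc core

end Vale.Agent.P297Y.Tor
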